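import Crest.Agent.X212.Cpt31.Zc
import Crest.Agent.X212.Mp86.Nkb
import Crest.Agent.X212.Mp86.Un
import Mathlib.Geometry.Manifold.WhitneyEmbedding

/-!
# Row 212, CRIT-CPT (helper31): the linear perturbation on the cylinder and uniform bounds
-/

set_option autoImplicit false
set_option linter.unusedSectionVars false
noncomputable section
open scoped Manifold ContDiff Topology InnerProductSpace Classical
open MeasureTheory Set Function Filter

namespace Crest.Agent.X212.Cpt31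
open An Cyf70 Nd18 Crt72 Dgr80 Mp86 Spn45

variable {E3 : Type} [NormedAddCommGroup E3] [NormedSpace ℝ E3] [FiniteDimensional ℝ E3]
  [MeasurableSpace E3] [BorelSpace E3]
  {H3 : Type} [TopologicalSpace H3] {I3 : ModelWithCorners ℝ E3 H3} [I3.Boundaryless]
  {Y : Type} [TopologicalSpace Y] [ChartedSpace H3 Y] [IsManifold I3 ∞ Y] [T2Space Y]
  [MeasurableSpace Y] [BorelSpace Y] [SecondCountableTopology Y] [CompactSpace Y]
  {κ : Type} [Fintype κ] {lam : Type} [Fintype lam] {D : YD I3 Y κ lam}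

theorem exists_yy (F : Pre I3 Y κ) : ∃ (n : ℕ) (y : Fin n → Y → ℝ), (∀ i, Sm I3 (y i)) ∧
    ∀ x (ξ : κ → ℝ), (∀ i, ∑ a, ξ a * F.D a (y i) x = 0) → ∑ a, ξ a • F.e a x = 0 := by
  obtain ⟨n, e, h1, -, h2⟩ := exists_embedding_euclidean_of_compact (I := I3) (M := Y)
  refine ⟨n, fun i x => EuclideanSpace.proj i (e x),
    fun i => (EuclideanSpace.proj i).contMDiff.comp h1,
    fun x ξ h => h2 x (Eq.trans (PiLp.ext fun i => ?_) (map_zero _).symm)⟩
  let L : E3 →L[ℝ] ℝ := EuclideanSpace.proj i ∘L mfderiv I3 (𝓡 n) e x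
  exact (map_sum L _ _).trans ((Finset.sum_congr rfl fun a _ => (map_smul L _ _).trans
    (congrArg (ξ a * ·)
      (Sob92.dv_clm (EuclideanSpace.proj i) (h1.mdifferentiable (by simp) x)).symm)).trans (h i))

/-- every basic density occurs in a neck datum -/
theorem exists_nd (j : BB D) : ∃ (N : ND Y lam) (i : N.J), N.OK D ∧ (N.dg D.nk).d i = den D j := by
  obtain ⟨n, y, y1, y2⟩ := exists_yy D.F.toPre
  have k0 : ∀ d : YDen Y, d.OK D.F → (⟨Unit, Empty, fun _ => d, nofun, 0, 1 / 8, n, y⟩ : ND Y lam).OK D :=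
    fun d hd => ⟨fun _ => hd, nofun, contDiff_const, fun _ _ _ => rfl, by norm_num, le_rfl, y1, y2⟩
  have k2 : ∀ d : YD2 Y lam, d.OK I3 → (⟨Empty, Unit, nofun, fun _ => d, 0, 1 / 8, n, y⟩ : ND Y lam).OK D :=
    fun d hd => ⟨nofun, fun _ => hd, contDiff_const, fun _ _ _ => rfl, by norm_num, le_rfl, y1, y2⟩
  rcases j with d | d | d | d
  exacts [⟨_, .inl (), k0 _ d.2, rfl⟩, ⟨_, .inl (), k0 _ d.2, rfl⟩, ⟨_, .inr (.inl ()), k2 _ d.2, rfl⟩,
    ⟨_, .inr (.inr ()), k2 _ d.2, rfl⟩]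

variable (S : Finset (BB D)) (c : BB D → ℝ)

/-- the linear perturbation with the coefficients `c` -/
def qd : DG (Y × ℝ) (Option κ) lam 0 S :=
  ⟨D.nk.τ, fun _ => 1, fun j => den D j, fun _ => 1, fun x => ∑ j : S, c j * x j⟩

variable {S c}

theorem co_eq (b : Cfg (Y × ℝ) (Option κ) lam 0) (j : S) (t : ℝ) : (qd S c).co D.Z b j t = c j := by
  have := HasFDerivAt.fun_sum fun (j : S) (_ : j ∈ Finset.univ) =>
    (hasFDerivAt_apply (𝕜 := ℝ) j ((qd S c).Iv D.Z b t)).const_mul (c j)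
  refine (one_mul _).trans ((congrArg (· (Pi.single j 1)) this.fderiv).trans ?_)
  simp [Pi.single_apply]

theorem β_eq (b : Cfg (Y × ℝ) (Option κ) lam 0) (j : S) (t : ℝ) : (qd S c).β D.Z b j t = c j := by
  simp only [DG.β, Dgr80.cv, co_eq]
  rw [integral_const_mul]
  exact (congrArg (_ * ·) (integral_b_sub one_pos t)).trans (mul_one _)

theorem g_eq (b : Cfg (Y × ℝ) (Option κ) lam 0) (x : Y × ℝ) :
    (qd S c).gA D.Z b x = ∑ j : S, (den D j).gA b (fun _ => c j) x ∧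
      (qd S c).gP D.Z b x = ∑ j : S, (den D j).gP b (fun _ => c j) x := by
  simp only [DG.gA, DG.gP, β_eq]
  exact ⟨rfl, rfl⟩

variable (h : HY D)
include h

/-- solutions on `Y` are solutions on the cylinder -/
theorem sol_cy (hl : ∀ j, Lift D j) {β : YC Y κ lam} (hβ : D.Adm β) (e : SolY D S c β) :
    (cy β).Sol D.B D.G ((qd S c).q1 (n := 0) D.B D.Z) := by
  have g := fun x => g_eq (S := S) (c := c) (cy β) x
  refine ⟨hβ.adm, fun x => eD_zero hβ _ nk_τ ((eD_row h.ok hβ _ nk_τ x).trans ?_),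
    fun x => eC_zero h.ok _ fun a => (eC_row h.ok _ nk_τ x a).trans ?_, nofun⟩
  · exact (map_add (pv D β x.1) _ _).symm.trans ((congrArg (fun v => pv D β x.1 (_ + v)) ((g x).2.trans
      ((Finset.sum_congr rfl fun j _ => ((hl _ β hβ).2 _ x).2).trans
        (Finset.sum_coe_sort S fun j => c j • (yf D j).gP β x.1)))).trans (e x.1).2)
  · have : dw κ β.m.A ((qd S c).gA D.Z (cy β) x) = ∑ j ∈ S, c j • (yf D j).gA β x.1 :=
      (congrArg _ (g x).1).trans ((map_sum _ _ _).trans ((Finset.sum_congr rfl fun j _ =>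
        ((hl _ β hβ).2 _ x).1).trans (Finset.sum_coe_sort S fun j => c j • (yf D j).gA β x.1)))
    rw [this, ← PiLp.add_apply, ← map_add, (e x.1).1]
    exact smul_zero _

/-- bounds of the perturbation, uniform in the coefficients -/
theorem b0 (S : Finset (BB D)) (R : ℝ) : ∃ K, ∀ c : BB D → ℝ, (∀ j, |c j| ≤ R) →
    B0 D.B D.G ((qd S c).q1 (n := 0) D.B D.Z) K := by
  obtain ⟨C, hT⟩ := tame_Z h
  let X : NK D (max 1 (C 0)) :=
    { K := D.nk, hB := h.ok.B, hG := h.ok.G, hT := ⟨C, hT⟩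
      l4 := (l4_of_tame hT).mono (le_max_right _ _) }
  have hS : 0 < max 1 (C 0) := lt_max_of_lt_left one_pos
  have d : ∀ j : S, ∀ᶠ k in atTop, DB D.B D.G (den D j) k := fun j => by
    obtain ⟨N, i, hN, e⟩ := exists_nd j.1
    exact (db_dg (r := 0) h.ok hN hS i).mono fun k hk => e ▸ hk X
  obtain ⟨k, k0, hk⟩ := ((eventually_ge_atTop (0 : ℝ)).and (eventually_all.2 d)).exists
  obtain ⟨n, n1, a, b⟩ := ((eventually_ge_atTop 1).and ((gd_fn (S := max 1 (C 0)) (g := none) h.ok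
    (by simp [OF])).and (ev_nat (cb 1 1)))).exists
  exact ⟨_, fun c hc => dg_b0 X.hb X.hB (D := qd S c) n1 (a X) hk k0 (fun _ => one_pos) (fun _ => b)
    (le_max_left 1 R) fun b _ j => ⟨continuous_const.congr fun t => (co_eq b j t).symm,
      fun t => (co_eq b j t).symm ▸ le_max_of_le_right (hc j)⟩⟩

omit h in
theorem cb_t {N : Type} [NormedAddCommGroup N] [NormedSpace ℝ N] {f : Y × ℝ → N}
    (hf : Sm (IC I3) f) (e : ∀ x, f x = f (x.1, 0)) : D.Z.Cb f :=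
  funext e ▸ Cht98.Cb_fst _ (Sob92.Cb_of_compact (hf.comp (contMDiff_id.prodMk contMDiff_const)))

theorem pscal : ∃ a, 0 ≤ a ∧ ∀ x, √(∑ s, Wz78.fP D.B D.G x s ^ 2) - Wz78.sc D.G x / 4 ≤ a := by
  have p : ∀ a b, D.Z.Cb (D.B.P a b) := fun a b =>
    cb_t (h.ok.B.sP a b) fun _ => by cases a <;> cases b <;> rfl
  have s : Sf D.Z.toPre (univ : Set ℝ) D.B (fun _ => D.G) fun a b _ => D.Z.P a b :=
    ⟨fun _ _ => h.ok.G.P, fun _ _ a x => (D.Z.P_e a x).symm, fun a b => .fixed (p a b), p,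
      fun a b c d => cb_t (h.ok.B.so a b c d) fun _ => rfl, cb_t h.ok.B.sl fun _ => rfl,
      fun a b k => .fixed (cb_t (D.Z.c_sm a b k) fun _ => by cases a <;> cases b <;> cases k <;> rfl),
      fun a => .fixed (cb_t (h.ok.G.con.sm a) fun _ => by cases a <;> rfl)⟩
  exact (s.pscal (isCompact_singleton (x := 0)) (subset_univ _)).imp fun _ k => ⟨k.1, k.2 0 rfl⟩

omit h in
theorem c0_aux {f : Y → ℝ} (hf : Continuous f) {C : ℝ} (C0 : 0 ≤ C)
    (k : ∀ σ, 1 ≤ σ → (∀ x, f x ≤ σ) → ∀ x, f x ≤ σ / 4 + C) (x : Y) : f x ≤ 2 * C + 1 := by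
  obtain ⟨y, -, hy⟩ := isCompact_univ.exists_isMaxOn ⟨x, trivial⟩ hf.continuousOn
  have e1 : ∀ x, f x ≤ f y := fun x => hy trivial
  have := k _ (le_max_left 1 (f y)) (fun x => le_max_of_le_right (e1 x)) y
  rcases le_total 1 (f y) with e | e
  · rw [max_eq_right e] at this; linarith [e1 x]
  · linarith [e1 x]

theorem c0 (K : ℝ) : ∃ σ, ∀ (β : YC Y κ lam) (τ : Pt (Y × ℝ) (Option κ) lam 0 0), D.Adm β →
    (cy β).Sol D.B D.G τ → B0 D.B D.G τ K → ∀ x, ‖β.Φ x‖ ^ 2 ≤ σ := by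
  obtain ⟨a, a0, ha⟩ := pscal h
  refine ⟨2 * (K / 2 + (576 * (a + (K + 1) / (1 / 12)) + 216)) + 1, fun β τ hβ s b => ?_⟩
  have K0 := b.K0
  have ct : Continuous β.Φ := hβ.adm.sm.continuous.comp (Continuous.prodMk_left (0 : ℝ))
  refine c0_aux (ct.norm.pow 2) (by positivity) fun σ σ1 e x => ?_
  have e' : ∀ x : Y × ℝ, ‖(cy β).Φ x‖ ^ 2 ≤ σ := fun x => e x.1
  have hb : Bumps (IC I3) D.G.F.e D.G.F.dv := bumps_cyl D.F
  refine ((solOn_of_sol s).step hb h.ok.B h.ok.G e' K0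
    (b.D _ _ hβ.adm σ1 e') (γ := 0) le_rfl (b.C _ hβ.adm)
    (fun _ => le_add_of_nonneg_left (sq_nonneg _)) a0 ha
    (η := 1 / 12) (by norm_num) (by norm_num) (x, 0)).trans_eq (by ring)

/-- **uniform `C⁰` and energy bounds** -/
theorem bounds (K : ℝ) : ∃ C, ∀ (β : YC Y κ lam) (τ : Pt (Y × ℝ) (Option κ) lam 0 0), D.Adm β →
    (cy β).Sol D.B D.G τ → B0 D.B D.G τ K → (∀ y, ‖β.Φ y‖ ≤ C) ∧
      Dom D.Z C fun x => ‖(cy β).m.Fg D.Z (cy β).W x‖ ^ 2 := by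
  obtain ⟨σ, k⟩ := c0 h K
  refine ⟨max (√σ) (2 * (2 * (32 * σ ^ 2) + 2 * K)), fun β τ hβ s b => ?_⟩
  replace k := k β τ hβ s b
  refine ⟨fun y => le_max_of_le_left (Real.le_sqrt_of_sq_le (k y)), (((Dom.const (C := 32 * σ ^ 2)
    (by positivity)).add ((b.C _ hβ.adm).mul zero_le_two)).mul zero_le_two).mono (le_max_right _ _)
    fun x => ?_⟩
  have e : ‖(cy β).m.p2 D.B x ((cy β).m.Fg D.Z (cy β).W x)‖ ^ 2 ≤ 32 * (‖β.Φ x.1‖ ^ 2) ^ 2 + _ :=
    (solOn_of_sol s).norm_p2_sq h.ok.B (mem_univ x)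
  have e' := norm_p2 h.ok.B (x := x) rfl (fun _ => rfl) ((cy β).m.Fg D.Z (cy β).W x)
  have e'' := pow_le_pow_left₀ (sq_nonneg _) (k x.1) 2
  exact (norm_Fg h.ok hβ x).trans_le (by linarith)

end Crest.Agent.X212.Cpt31
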