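import Crest.Agent.X212.Cpt31.Main
import Crest.Agent.X212.Cqn41.Cyc
import Crest.Agent.X212.Cyl12.Lim

/-!
# Row 212, CRIT-CPT (helper31): no hypotheses
-/

set_option autoImplicit false
noncomputable section
open scoped Manifold ContDiff Topology

namespace Crest.Agent.X212.Cpt31
open An Nd18 Crt72

variable {E3 : Type} [NormedAddCommGroup E3] [NormedSpace ℝ E3] [FiniteDimensional ℝ E3]
  [MeasurableSpace E3] [BorelSpace E3]
  {H3 : Type} [TopologicalSpace H3] {I3 : ModelWithCorners ℝ E3 H3} [I3.Boundaryless]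
  {Y : Type} [TopologicalSpace Y] [ChartedSpace H3 Y] [IsManifold I3 ∞ Y] [T2Space Y]
  [MeasurableSpace Y] [BorelSpace Y] [SecondCountableTopology Y] [CompactSpace Y]
  {κ : Type} [Fintype κ] {lam : Type} [Fintype lam] (D : YD I3 Y κ lam)

theorem cyc : Cyc D := fun _ _ _ k =>
  k.cyc_of ⟨k.up.bk.ok.B₀, k.up.bk.ok.G₀⟩ (fun _ _ _ => rfl)
    (.of_forall fun _ => Mp86.l4_of_tame k.up.bk.tame.choose_spec) fun _ _ _ _ h V h₀ =>
      ⟨Cyl12.qs k.up.bk h V h₀, fun _ _ _ hl hη _ _ lb a => Cyl12.qa k.up.bk h V h₀ hl hη lb a⟩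

/-- **CRIT-CPT** -/
theorem cptStmt : CptStmt D := cpt_of (cyc D)

end Crest.Agent.X212.Cpt31
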