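import Crest.Agent.X212.Cpt31.Pt
import Crest.Agent.X212.Shi84.Nc

/-!
# Row 212, CRIT-CPT (helper31): the limit on the cylinder
-/

set_option autoImplicit false
set_option linter.unusedSectionVars false
noncomputable section
open scoped Manifold ContDiff Topology InnerProductSpace Classical NNReal
open MeasureTheory Set Function Filter

namespace Crest.Agent.X212.Cpt31
open An Cyf70 Nd18 Crt72 Dgr80 Cmp73 Cqn41 Eqv71

section nc
variable {E : Type} [NormedAddCommGroup E] [NormedSpace ℝ E] [FiniteDimensional ℝ E]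
  [MeasurableSpace E] [BorelSpace E]
  {HM : Type} [TopologicalSpace HM] {I : ModelWithCorners ℝ E HM} [I.Boundaryless]
  {E₀ : Type} [NormedAddCommGroup E₀] [NormedSpace ℝ E₀] [FiniteDimensional ℝ E₀]
  [MeasurableSpace E₀] [BorelSpace E₀]
  {H₀ : Type} [TopologicalSpace H₀] {I₀ : ModelWithCorners ℝ E₀ H₀} [I₀.Boundaryless]
  {M : Type} [TopologicalSpace M] [ChartedSpace H₀ M] [IsManifold I₀ ∞ M] [MeasurableSpace M]
  [BorelSpace M] [T2Space M] [SecondCountableTopology M] {ι lam α : Type} [Fintype ι] [Fintype lam]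
  {X : α → Type} [∀ n, TopologicalSpace (X n)] [∀ n, ChartedSpace HM (X n)]
  [∀ n, IsManifold I ∞ (X n)] [∀ n, MeasurableSpace (X n)] [∀ n, BorelSpace (X n)]
  [∀ n, T2Space (X n)] [∀ n, SecondCountableTopology (X n)] {r : ℕ}
  {g : Gs I I₀ M ι lam X} {c : ∀ n, Cfg (X n) ι lam r} {x : M}
  (h : Shi84.NC g (fun n y => ‖g.Fg c n y‖ ^ 2) x)
include h

theorem not_bub : ¬g.Bub c x := fun ⟨ε, ε0, k⟩ => by
  obtain ⟨N, hN, e⟩ := h (ε / 2) (by positivity)
  obtain ⟨n, a, b⟩ := ((k N hN).and e).exists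
  have := a.trans b
  rw [← ENNReal.ofReal_coe_nnreal, ENNReal.ofReal_le_ofReal_iff (by positivity)] at this
  linarith [show (0 : ℝ) < ε from ε0]

theorem en_of_nc (hg : g.OK) : (g.fb c (g.F g.Pᶜ x)).En := by
  obtain ⟨N, hN, e⟩ := h 1 one_pos
  refine ⟨1, {q | Shi84.li g (fun n y => ‖g.Fg c n y‖ ^ 2) q.1 N ≤ ENNReal.ofReal 1 ∧
    q.2 ∈ g.ψ q.1 '' (N ∩ (g.ψ q.1).source)}, eventually_map.2 (ev_nF.2 ((eventually_mem_nhdsWithin.and
      ((eventually_eventually_nhds.2 hN).filter_mono nhdsWithin_le_nhds)).mono fun y hy =>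
      ((e.prod_mk hy.2).and (hg.src y hy.1)).mono fun q hq => ⟨hq.1.1, _, ⟨hq.1.2, hq.2⟩, rfl⟩)),
    fun n => ?_⟩
  by_cases k : Shi84.li g (fun n y => ‖g.Fg c n y‖ ^ 2) n N ≤ ENNReal.ofReal 1
  · exact (lintegral_mono_set fun _ hy => hy.2).trans (k.trans_eq (by simp))
  · rw [show Sigma.mk n ⁻¹' _ = ∅ from eq_empty_of_forall_notMem fun _ hy => k hy.1]
    simp

end nc

variable {E3 : Type} [NormedAddCommGroup E3] [NormedSpace ℝ E3] [FiniteDimensional ℝ E3]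
  [MeasurableSpace E3] [BorelSpace E3]
  {H3 : Type} [TopologicalSpace H3] {I3 : ModelWithCorners ℝ E3 H3} [I3.Boundaryless]
  {Y : Type} [TopologicalSpace Y] [ChartedSpace H3 Y] [IsManifold I3 ∞ Y] [T2Space Y]
  [MeasurableSpace Y] [BorelSpace Y] [SecondCountableTopology Y] [CompactSpace Y]
  {κ : Type} [Fintype κ] {lam : Type} [Fintype lam] {D : YD I3 Y κ lam} {α : Type}
  {𝒰 : Ultrafilter α}

variable (D) in
/-- LEAF CYC on the cylinder -/
def Cyc : Prop := ∀ (α : Type) (𝒰 : Ultrafilter α) (c : α → Cfg (Y × ℝ) (Option κ) lam 0),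
  (nu D 𝒰 c).OK → (nu D 𝒰 c).CYC (Th31.CL (zc D 𝒰) c)

theorem dcut_nk (d : ZD Y κ lam) : dcut D.nk.χ d = d := by
  simp only [dcut, Spn45.nk_χ, one_mul, mul_one]

theorem hyp_of (hc : Cyc D) {c : α → Cfg (Y × ℝ) (Option κ) lam 0} (k : (nu D 𝒰 c).OK)
    {S : Finset (BB D)} {R : ℝ} {z : α → BB D → ℝ} (hz : ∀ n j, |z n j| ≤ R)
    (s : ∀ n, (c n).Sol D.B D.G ((qd S (z n)).q1 (n := 0) D.B D.Z))
    (he : ∀ x, ((zc D 𝒰).fb c ((zc D 𝒰).F (zc D 𝒰).Pᶜ x)).En) : (zc D 𝒰).Hyp c := by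
  have b := k.up.bk
  have hU := Th31.cux b.ok b.adm
  have d : ∀ j, ∃ d, (up D 𝒰 c).PDn (Th31.CL (zc D 𝒰) c) (fun _ => den D j) d := fun j => by
    obtain ⟨N, i, hN, e⟩ := exists_nd j
    obtain ⟨d, d', h1, h2, -⟩ := k.den hU hN (hc _ _ _ k) i
    have : (fun _ => den D j) = d := funext fun n => (e.symm.trans (h2 n)).trans (dcut_nk _)
    exact ⟨d', this ▸ h1⟩
  choose d' hd using d
  have f : ∀ j, ∃ t, (up D 𝒰 c).PS (fun n _ => z n j) t := fun j => by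
    obtain ⟨a, -, ha⟩ := (isCompact_Icc (a := -R) (b := R)).ultrafilter_le_nhds' (𝒰.map fun n => z n j)
      (Ultrafilter.mem_map.2 (univ_mem' fun n => abs_le.1 (hz n j)))
    exact ⟨fun _ _ _ => a, fun _ => sb_const _, ⟨_, Gs.QS.cst (z' := fun _ => a) (fun _ _ _ => ha)
      (.of_forall fun n => hz n j), fun _ _ _ _ _ _ => rfl⟩, fun _ _ _ _ => sb_const _⟩
  choose t ht using f
  have A := Up.P1.sum k.up hU Finset.univ fun (j : S) _ => (hd j).A (ht j)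
  have P := Up.PV.sum k.up Finset.univ fun (j : S) _ => (hd j).P (ht j)
  replace A : (up D 𝒰 c).P1 _ (fun n => (qd S (z n)).gA D.Z (c n)) _ :=
    (congrArg ((up D 𝒰 c).P1 _ · _) (funext₂ fun n x => (g_eq _ x).1)).mpr A
  replace P : (up D 𝒰 c).PV (fun n => (qd S (z n)).gP D.Z (c n)) _ :=
    (congrArg ((up D 𝒰 c).PV · _) (funext₂ fun n x => (g_eq _ x).2)).mpr P
  exact b.hyp (k.qn1 (m := 0) hU A P) (fun n x => (congrFun ((k.up.pb n).eD (s n).sm) x).trans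
    (congrArg (trn ((c n).m.p x)) (sub_eq_zero.1 ((s n).D x)))) (fun n x => ((k.up.pb n).eC x).trans
      (congrArg (ridx (sq2 fun a b => D.B.P b a x) (cj (trn ((c n).m.p x))))
        (sub_eq_zero.1 ((s n).C x)))) he

/-- **the limit without bubbles** -/
theorem exists_lim (h : HY D) (hc : Cyc D) (hl : ∀ j, Lift D j) {S : Finset (BB D)} {R : ℝ}
    {z : α → BB D → ℝ} {β : α → YC Y κ lam} (hz : ∀ n j, |z n j| ≤ R)
    (hβ : ∀ n, D.Adm (β n) ∧ SolY D S (z n) (β n)) :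
    ∃ c' u, (zc D 𝒰).Lim (fun n => cy (β n)) c' ∅ u := by
  obtain ⟨K, hK⟩ := b0 h S R
  obtain ⟨C, hC⟩ := bounds h K
  have s := fun n => sol_cy h hl (hβ n).1 (hβ n).2
  have e := fun n => hC _ _ (hβ n).1 (s n) (hK _ (hz n))
  have g := zc_ok 𝒰 h
  have b : (zc D 𝒰).Bk fun n => cy (β n) := g.bk (zc_ga 𝒰 h) (tame_Z h) (fun n => (hβ n).1.adm)
    ⟨C, .of_forall fun n x => (e n).1 x.1⟩
  have nc := fun x => Shi84.nc_of_dom (x := x) g id
    (f := fun n y => ‖(zc D 𝒰).Fg (fun n => cy (β n)) n y‖ ^ 2) (fun _ _ => sq_nonneg _)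
    (.of_forall fun n => (e n).2)
  have := b.core.ex (hyp_of hc (nu_ok 𝒰 h b fun n => lh_cy h (hβ n).1) hz s fun x => en_of_nc (nc x) g)
  rwa [show (zc D 𝒰).S _ = ∅ from eq_empty_of_forall_notMem fun x hx => hx.elim id (not_bub (nc x))]
    at this

end Crest.Agent.X212.Cpt31
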