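import Crest.Agent.X212.Cpt31.Hyp
import Crest.Agent.X212.Cgr76.Mo
import Crest.Agent.X212.Spn45.Nat
import Crest.Agent.X212.Pj41.Red
import Crest.Agent.X212.Bki64.Rig

/-!
# Row 212, CRIT-CPT (helper31): compactness of the critical points on `Y`
-/

set_option autoImplicit false
set_option linter.unusedSectionVars false
noncomputable section
open scoped Manifold ContDiff Topology InnerProductSpace Classical
open MeasureTheory Set Function Filter

namespace Crest.Agent.X212.Cpt31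
open An Cyf70 Nd18 Crt72 Cmp73 Tmp64

variable {E3 : Type} [NormedAddCommGroup E3] [NormedSpace ℝ E3] [FiniteDimensional ℝ E3]
  [MeasurableSpace E3] [BorelSpace E3]
  {H3 : Type} [TopologicalSpace H3] {I3 : ModelWithCorners ℝ E3 H3} [I3.Boundaryless]
  {Y : Type} [TopologicalSpace Y] [ChartedSpace H3 Y] [IsManifold I3 ∞ Y] [T2Space Y]
  [MeasurableSpace Y] [BorelSpace Y] [SecondCountableTopology Y] [CompactSpace Y]
  {κ : Type} [Fintype κ] {lam : Type} [Fintype lam] {D : YD I3 Y κ lam} {α : Type}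

section sl
variable {N : Type} [NormedAddCommGroup N] [NormedSpace ℝ N] {l : Filter α}

theorem tend_sl (y : Y) :
    Tendsto (fun q : α × Y => (q.1, (q.2, (0 : ℝ)))) (l ×ˢ 𝓝 y) (l ×ˢ 𝓝 (y, 0)) :=
  tendsto_id.prodMap ((Continuous.prodMk_left (0 : ℝ)).tendsto y)

theorem mb_sl (F : Pre I3 Y κ) (y : Y) : ∀ (k : ℕ) {f : α → Y × ℝ → N},
    (∀ k, MB (IC I3) l (y, 0) k f) → MB I3 l y k fun n z => f n (z, 0)
  | 0, _, h => MB.zero_of (((tend_sl y).eventually (h 0).smooth).mono fun _ => Bki64.sm_slice)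
      ((h 0).bdd.imp fun _ => (tend_sl y).eventually)
  | k + 1, f, h => MB.gainP F (mb_sl F y 0 h) fun a =>
      (mb_sl F y k (f := fun n => (cylP F).D (some a) (f n)) fun k => (h (k + 1)).dv
        (MB.vf (.of_forall ((cylP F).sm _)))).congr (((tend_sl y).eventually (h 0).smooth).mono
          fun _ hq => (D_some_at F (hq.mdifferentiableAt (by simp)) a).symm)

theorem cv_sl (F : Pre I3 Y κ) {f : α → Y × ℝ → N} {g : Y × ℝ → N} (h : Cv (IC I3) l ∅ᶜ f g) :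
    Cv I3 l univ (fun n z => f n (z, 0)) fun z => g (z, 0) :=
  ⟨fun k y _ => mb_sl F y k fun k => h.mb k _ id, fun _ _ => h.pt _ id⟩

end sl

/-- the slice at the time `0`, in temporal gauge -/
def slc (γ : Cfg (Y × ℝ) (Option κ) lam 0) : YC Y κ lam := Nd18.pb (fun y => (y, 0)) (frz 0 γ)

theorem adm_slc {γ : Cfg (Y × ℝ) (Option κ) lam 0} (h : γ.Adm D.B D.G) : D.Adm (slc γ) :=
  have e : cy (slc γ) = frz 0 γ :=
    congrArg (fun W => (⟨(frz 0 γ).m, W, (frz 0 γ).Φ, γ.z⟩ : Cfg (Y × ℝ) (Option κ) lam 0))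
      (funext₂ fun a x => (inv_frz 0 γ).Wi a x.1 0 x.2)
  ⟨e ▸ (Bki64.cyD D).adm_sq contDiff_const h, fun y => frz_none 0 (y, 0)⟩

section lim
variable {𝒰 : Ultrafilter α} {β : α → YC Y κ lam} {γ : Cfg (Y × ℝ) (Option κ) lam 0}
  (u : ∀ n, Y × ℝ → CL (β n).m.V γ.m.V)

variable (D 𝒰) in
/-- the form part of the variation -/
def fa (n : α) (y : Y) : Fm κ γ.m.A :=
  WithLp.toLp 2 fun a => hsL (-(zc D 𝒰).dA (fun n => cy (β n)) γ u (some a) n (y, 0))

/-- the spinor part of the variation -/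
def fp (n : α) (y : Y) : γ.m.V := u n (y, 0) ((β n).Φ y) - γ.Φ (y, 0)

variable {u} (h : HY D) (hβ : ∀ n, D.Adm (β n)) (L : (zc D 𝒰).Lim (fun n => cy (β n)) γ ∅ u)
include L

theorem cv_fa : Cv I3 𝒰 univ (fa D 𝒰 u) 0 :=
  ((Cv.pi fun a => (cv_sl D.F.toPre (L.A (some a))).neg.clm hsL).clm
    (PiLp.continuousLinearEquiv 2 ℝ fun _ : κ => γ.m.A).symm.toContinuousLinearMap).congr
    (fun _ _ => .of_forall fun _ => rfl) fun _ _ => by simp; rfl

theorem cv_fp : Cv I3 𝒰 univ (fp u) 0 :=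
  ((cv_sl D.F.toPre L.Φ).sub (Cv.fixed' (Cgr76.sm_sl L.adm.sm))).congr
    (fun _ _ => .of_forall fun _ => rfl) fun _ _ => (sub_self _).symm

include h hβ

theorem ev_sec : ∀ᶠ n in (𝒰 : Filter α), fa D 𝒰 u n ∈ Sec I3 (pc D (slc γ)) ∧
    fp u n ∈ Sec I3 (pv D (slc γ)) := by
  have i : ∀ᶠ n in (𝒰 : Filter α), ∀ y ∈ univ, ∃ O, IsOpen O ∧ (y, 0) ∈ O ∧
      Pj41.Iso0 (IC I3) (cy (β n)).m γ.m O (u n) := ev_compact isCompact_univ fun y _ =>
    let ⟨O, h1, h2, h3⟩ := L.iso (y, 0) id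
    ((tend_sl y).eventually (h3.prod_mk (h1.mem_nhds h2))).mono fun _ hq => ⟨O, h1, hq.2, hq.1⟩
  filter_upwards [i, ev_compact (p := fun n => Pj41.FSm I3 (fa D 𝒰 u n)) isCompact_univ fun y _ =>
    ((cv_fa L).mb 0 y trivial).smooth, ev_compact (p := fun n => Pj41.FSm I3 (fp u n)) isCompact_univ
      fun y _ => ((cv_fp L).mb 0 y trivial).smooth] with n i s1 s2
  refine ⟨⟨fun y => s1 y trivial, .of_compactSpace _, fun y => PiLp.ext fun a => ?_⟩,
    fun y => s2 y trivial, .of_compactSpace _, fun y => ?_⟩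
  all_goals obtain ⟨O, h1, h2, h3⟩ := i y trivial
  · obtain ⟨k1, k2⟩ := Pj41.dA_mem h.ok.G.P h3 h1 ((admOn_univ.2 (hβ n).adm).mono (subset_univ _))
      ((admOn_univ.2 L.adm).mono (subset_univ _)) h2
    have k := congrArg (fun T => hsL (-T)) (k2 (some a))
    simp only [Fintype.sum_option, show D.B.P (some a) none (y, 0) = 0 from rfl, zero_smul, zero_add,
      ← Finset.sum_neg_distrib, ← smul_neg, map_sum, map_smul] at k
    refine (Eqv71.idx_apply _ _ _ _).trans (Eq.trans (Finset.sum_congr rfl fun b _ => ?_) k)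
    exact congrArg (D.F.P a b y • ·) (Wz78.pg_of_mem (m := γ.m) (x := (y, 0))
      ((congrArg (· ∈ γ.m.gS (y, 0)) (map_neg (hsL (κ := Fin γ.m.N)) _)).mpr (neg_mem (k1 (some b)))))
  · exact (map_sub (γ.m.pp D.B (y, 0)) _ _).trans (congrArg₂ (· - ·) ((h3.pp h2 _).trans
      (congrArg (u n (y, 0)) ((hβ n).adm.pos (y, 0)))) (L.adm.pos _))

theorem ev_eqv : ∀ᶠ n in (𝒰 : Filter α), ∀ y : SP D (slc γ), y.1.1 = fa D 𝒰 u n → y.2.1 = fp u n →
    D.Eqv (β n) (cf y) := by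
  filter_upwards [ev_compact (p := fun n y => (zc D 𝒰).Nr (fun n => cy (β n)) γ u n (y, 0))
    isCompact_univ fun y _ => (tend_sl y).eventually
      (L.nr (zc_ok 𝒰 h) (fun n => (hβ n).adm) (x := (y, 0)) id)] with n k y e1 e2
  let w : Y → CL (β n).m.V (cf y).m.V := fun z => u n (z, 0)
  have s : ∀ z, Pj41.FSm I3 (fun z => u n (z, 0)) z := fun z => Bki64.sm_slice (k z trivial).su
  have m : ∀ z, Cgr76.MY D (β n) (cf y) z (w z) := fun z =>
    have m := (k z trivial).me; ⟨m.uu, m.uu', m.J, m.ρ, m.j⟩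
  have i : ∀ z, Eqv71.Itw I3 D.F.e (cn (β n)) (cn (cf y)) w z := fun z a => by
    have e3 : cn (cf y) a z = (zc D 𝒰).tW (fun n => cy (β n)) γ u n (some a) (z, 0) :=
      (congrArg₂ (fun S T : En (Fin γ.m.N) => S + T) (frz_some (c := γ) 0 a (z, 0))
        ((congrArg (fun v : Y → Fm κ γ.m.A => opL (v z a)) e1).trans
          (Eqv71.opL_hsL _))).trans (sub_eq_add_neg _ _).symm
    exact (congrArg₂ (fun (S : CL (β n).m.V γ.m.V) (T : En (Fin γ.m.N)) => S + T ∘L u n (z, 0))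
      (D_some_at D.F.toPre (x := (z, 0))
      ((k z trivial).su.mdifferentiableAt (by simp)) a).symm e3).trans ((k z trivial).itw (some a))
  have f : ∀ z, (cf y).Φ z = cs (cf y).m.J (1 : Circle) (w z ((β n).Φ z)) := fun z => by
    rw [Circle.coe_one, Eqv71.cs_one]
    exact (congrArg (fun v => γ.Φ (z, 0) + v z) e2).trans (add_sub_cancel _ _)
  exact ⟨fun x => w x.1, 1, (Cgr76.yiso_iff h.ok (hβ n) (Spn45.admV _ (adm_slc L.adm) y)).2
    ⟨s, m, i, f⟩⟩

end lim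

/-- **CRIT-CPT** from the leaf CYC -/
theorem cpt_of (hc : Cyc D) : CptStmt D := fun h _ hl S R ι 𝒰 c β hz hβ => by
  obtain ⟨γ, u, L⟩ := exists_lim (𝒰 := 𝒰) h hc hl hz hβ
  have a := fun n => (hβ n).1
  let y : ι → SP D (slc γ) := fun n =>
    if k : fa D 𝒰 u n ∈ Sec I3 (pc D (slc γ)) ∧ fp u n ∈ Sec I3 (pv D (slc γ)) then
      (⟨_, k.1⟩, ⟨_, k.2⟩) else 0
  have e : ∀ᶠ n in (𝒰 : Filter ι), (y n).1.1 = fa D 𝒰 u n ∧ (y n).2.1 = fp u n :=
    (ev_sec h a L).mono fun n k => by rw [show y n = _ from dif_pos k]; exact ⟨rfl, rfl⟩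
  refine ⟨slc γ, y, adm_slc L.adm, fun k => Tendsto.prodMk_nhds
    (tendsto_zero_iff_norm_tendsto_zero.2 (((cv_fa L).nrm D.F.toPre k).congr' (e.mono fun n k => ?_)))
    (tendsto_zero_iff_norm_tendsto_zero.2 (((cv_fp L).nrm D.F.toPre k).congr' (e.mono fun n k => ?_))),
    (e.and (ev_eqv h a L)).mono fun n k => k.2 _ k.1.1 k.1.2⟩
  · exact (congrArg _ ((sub_zero _).trans k.1.symm)).trans (Pre.norm_toH _ _ _ _).symm
  · exact (congrArg _ ((sub_zero _).trans k.2.symm)).trans (Pre.norm_toH _ _ _ _).symm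

end Crest.Agent.X212.Cpt31
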