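import Crest.Agent.X212.Cqn41.Q1
import Crest.Agent.X212.Pat85.Tr
import Crest.Agent.X212.Spn45.Eqs
import Crest.Agent.X212.Cht98.Cov
import Crest.Agent.X212.Mp86.C0G
import Crest.Agent.X212.Th31.Cux

/-!
# Row 212, CRIT-CPT (helper31): the cylinder as a constant family of backgrounds
-/

set_option autoImplicit false
set_option linter.unusedSectionVars false
noncomputable section
open scoped Manifold ContDiff Topology InnerProductSpace
open MeasureTheory Set Function Filter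

namespace Crest.Agent.X212.Cpt31
open An Cyf70 Nd18 Crt72 Cmp73 Eqv71 Cqn41

variable {E3 : Type} [NormedAddCommGroup E3] [NormedSpace ℝ E3] [FiniteDimensional ℝ E3]
  [MeasurableSpace E3] [BorelSpace E3]
  {H3 : Type} [TopologicalSpace H3] {I3 : ModelWithCorners ℝ E3 H3} [I3.Boundaryless]
  {Y : Type} [TopologicalSpace Y] [ChartedSpace H3 Y] [IsManifold I3 ∞ Y] [T2Space Y]
  [MeasurableSpace Y] [BorelSpace Y] [SecondCountableTopology Y] [CompactSpace Y]
  {κ : Type} [Fintype κ] {lam : Type} [Fintype lam] (D : YD I3 Y κ lam) {α : Type}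
  (𝒰 : Ultrafilter α) {r : ℕ} (c : α → Cfg (Y × ℝ) (Option κ) lam r)

/-- the constant family of backgrounds -/
def zc : Gs (IC I3) (IC I3) (Y × ℝ) (Option κ) lam fun _ : α => Y × ℝ :=
  ⟨𝒰, fun _ => D.B, fun _ => D.G, D.B, D.G, fun _ => D.G, fun _ => .refl _, ∅⟩

/-- the trivial pull-back -/
def up : Up (IC I3) Unit (fun _ : α => Y × ℝ) (zc D 𝒰) c :=
  ⟨fun _ => D.B, fun _ => D.G, c, fun _ => univ, fun _ => id, fun _ => id,
    fun _ x b a => D.B.P b a x, fun _ => D.B.l, fun n => (c n).m.p, fun _ => univ⟩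

/-- the cylinder as its own neck -/
def nu : NU (up D 𝒰 c) D := ⟨fun _ => D.nk, fun _ => D.nk, fun _ => D.nk, fun _ _ => 0⟩

variable {D c} (h : HY D)
include h

theorem tame_Z : ∃ C, D.Z.Tame C := Cht98.tame_cyl D.F h.dim.le

theorem zc_ok : (zc D 𝒰).OK :=
  ⟨by simp [Module.finrank_prod, h.dim], fun _ => h.ok.B, fun _ => h.ok.G, h.ok.B, h.ok.G,
    fun _ => h.ok.G, finite_empty, fun _ _ => .of_forall fun _ => trivial,
    fun _ => Pj41.FRel.refl _ isOpen_univ, fun _ _ _ _ _ _ _ => rfl, fun _ _ _ => rfl, fun _ => rfl,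
    fun _ _ _ _ => rfl, fun a => ⟨fun _ _ => MB.vf (.of_forall (D.Z.sm a)), fun _ => tendsto_const_nhds⟩,
    fun a b k => Cv.fixed' (D.Z.c_sm a b k), fun a => Cv.fixed' (h.ok.G.con.sm a)⟩

theorem zc_ga : (zc D 𝒰).Ga c := fun _ ha hP fin hF hΦ => by
  have L : (E3 × ℝ) ≃L[ℝ] EuclideanSpace ℝ (Fin 4) :=
    .ofFinrankEq (by simp [Module.finrank_prod, h.dim])
  have := Pat85.cvxOn_prod (I := IC I3) (J := I3) L (.refl (Y × ℝ)) isOpen_univ convex_univ
    (subset_univ _) (fun _ _ => contMDiffAt_id) fun _ _ => contMDiffAt_id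
  rw [univ_prod_univ, OpenPartialHomeomorph.refl_apply, image_id] at this
  exact Pat85.ga (zc_ok 𝒰 h) ha this (by simp) hP fin hF hΦ

theorem nu_ok (k : (zc D 𝒰).Bk c) (hl : ∀ n, Abel74.Lh (c n) D.B D.G) : (nu D 𝒰 c).OK := by
  have r := nkR_refl (O := univ) D.nk fun _ h => (h trivial).elim
  refine ⟨⟨k, fun n => Shi84.pb_of_ceq (kg_refl h.ok.B h.ok.G isOpen_univ) denseRange_id
    (ad0 (k.adm n)) (ad0 (k.adm n)) (ceq_refl h.ok.B h.ok.G (ad0 (k.adm n)) isOpen_univ), hl,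
    fun _ => isClopen_univ⟩, fun _ => r, fun _ => subset_univ _, fun _ f => r.sr h.ok.B f,
    ⟨fun _ => ⟨fun _ _ => id, fun _ _ => ?_, fun _ _ => .of_forall fun _ => rfl, M.EC.cst, M.EC.cst,
      fun R => ⟨univ ×ˢ Icc (-R) R, isCompact_univ.prod isCompact_Icc, subset_univ _,
        .of_forall fun _ x _ hx => ⟨x, ⟨trivial, abs_le.1 ?_⟩, rfl⟩⟩⟩,
      fun _ _ hx => (hx () trivial).elim,
      fun _ => univ, fun _ => isClopen_univ, Subsingleton.pairwise, fun _ => subset_univ _⟩,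
    Subsingleton.pairwise, fun _ => subset_univ _⟩
  · exact tendsto_const_nhds.congr fun _ => (sub_zero _).symm
  · exact (sub_zero x.2) ▸ hx

omit h in
/-- `t`-invariant continuous functions are bounded -/
theorem bd_t {N : Type} [NormedAddCommGroup N] {f : Y × ℝ → N} (hf : Continuous f)
    (e : ∀ x, f x = f (x.1, 0)) : ∃ C, ∀ x, ‖f x‖ ≤ C :=
  let ⟨C, hC⟩ := isCompact_univ.exists_bound_of_continuousOn
    (hf.comp (Continuous.prodMk_left (0 : ℝ))).continuousOn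
  ⟨C, fun x => e x ▸ hC x.1 trivial⟩

theorem lh_cy {β : YC Y κ lam} (hβ : D.Adm β) : Abel74.Lh (cy β) D.B D.G :=
  ⟨h.ok.B, h.ok.G, tame_Z h, hβ.adm.ok, hβ.adm.conn, hβ.adm.sm, hβ.adm.pos,
    bd_t hβ.adm.sm.continuous fun _ => rfl,
    bd_t (Mp86.sm_Fg h.ok.B h.ok.G hβ.adm.ok hβ.adm.conn).continuous Spn45.Fg_t⟩

end Crest.Agent.X212.Cpt31
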